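import Vale.Agent.P299.B.Semiample

/-!
# P299: nonvanishing descends from the fibre
-/

open scoped Manifold ContDiff Topology
open Set Filter

namespace Vale.Agent.P299

/-- `-NK ⊗ L_χ` has a nonzero holomorphic section on the quotient of `M × F` by the group `Γ`, for
some flat line bundle `L_χ` on the quotient, `χ : Γ → ℂ^*`: there is a nonzero section `t` of `-NK`
on `M × F` with `γ^* t = χ(γ) t` for all `γ`.  (The product carries its usual complex structure,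
Mathlib's `prodChartedSpace`, with model space `E × ℂ^n`.) -/
def HasFlatTwistedSection (E : Type*) [NormedAddCommGroup E] [NormedSpace ℂ E] (n : ℕ)
    (M : Type*) [TopologicalSpace M] [ChartedSpace E M]
    (F : Type*) [TopologicalSpace F] [ChartedSpace (Fin n → ℂ) F]
    (Γ : Type*) [Group Γ] [MulAction Γ (M × F)] (N : ℕ) : Prop :=
  letI : ChartedSpace (E × (Fin n → ℂ)) (M × F) := prodChartedSpace E M (Fin n → ℂ) F
  ∃ (χ : Γ →* ℂˣ) (t : AntiSection (E × (Fin n → ℂ)) (M × F) N),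
    t.Nonzero ∧ ∀ γ : Γ, t.IsEigen (fun y => γ • y) (χ γ)

end Vale.Agent.P299

open Vale.Agent.P299

theorem Vale.Agent.Results.P299.Descent.result
    {E : Type*} [NormedAddCommGroup E] [NormedSpace ℂ E] [FiniteDimensional ℂ E] {n r : ℕ}
    -- the `K`-trivial factor `M` of the universal cover
    {M : Type*} [TopologicalSpace M] [ChartedSpace E M] [IsManifold 𝓘(ℂ, E) ω M]
    [ConnectedSpace M]
    -- the compact factor `F`
    {F : Type*} [TopologicalSpace F] [ChartedSpace (Fin n → ℂ) F]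
    [IsManifold 𝓘(ℂ, Fin n → ℂ) ω F] [CompactSpace F] [T2Space F] [ConnectedSpace F]
    -- the manifold `X = (M × F) / Γ`
    {X : Type*} [TopologicalSpace X] [ChartedSpace (E × (Fin n → ℂ)) X]
    [IsManifold 𝓘(ℂ, E × (Fin n → ℂ)) ω X]
    {Γ : Type*} [Group Γ] [MulAction Γ (M × F)]
    (hact : ∀ γ : Γ, ContMDiff (𝓘(ℂ, E).prod 𝓘(ℂ, Fin n → ℂ)) (𝓘(ℂ, E).prod 𝓘(ℂ, Fin n → ℂ)) ω
      (fun y : M × F => γ • y))
    {p : M × F → X}
    (hp : IsLocalDiffeomorph (𝓘(ℂ, E).prod 𝓘(ℂ, Fin n → ℂ)) 𝓘(ℂ, E × (Fin n → ℂ)) ω p)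
    (hsurj : Function.Surjective p)
    (hfib : ∀ y y' : M × F, p y = p y' ↔ ∃ γ : Γ, γ • y = y')
    -- a section of `-kK_M`
    {k : ℕ} (hk : 1 ≤ k) (η : AntiSection E M k) (hη : η.Nonzero)
    -- a finite index subgroup acts on `F` through a torus, and preserves `η`
    (T : TorusAction r (Fin n → ℂ) F)
    (Γ₀ : Subgroup Γ) [Γ₀.FiniteIndex]
    (hΓ₀ : ∀ γ ∈ Γ₀, ∃ (h : M → M) (w : Fin r → ℂ), ContMDiff 𝓘(ℂ, E) 𝓘(ℂ, E) ω h ∧
      (∀ x y, γ • (x, y) = (h x, T.act w y)) ∧ η.IsEigen h 1) :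
    -- (1) `-K_F` has a section iff `-K_X` has one up to a flat twist
    ((∃ (m : ℕ) (_ : 1 ≤ m) (s : AntiSection (Fin n → ℂ) F m), s.Nonzero) ↔
      ∃ (N : ℕ) (_ : 1 ≤ N), HasFlatTwistedSection E n M F Γ N) ∧
    -- (2) a log canonical family on `F` gives a section of some `-NK_X`
    (∀ (m q : ℕ) (s : Fin q → AntiSection (Fin n → ℂ) F m), 1 ≤ m → IsLC s →
      ∃ (N : ℕ) (_ : 1 ≤ N) (t : AntiSection (E × (Fin n → ℂ)) X N), t.Nonzero) ∧
    -- (3) so does a base point free `-mK_F`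
    (∀ m : ℕ, 1 ≤ m →
      (∀ x : F, ∃ s : AntiSection (Fin n → ℂ) F m, ∃ e ∈ atlas (Fin n → ℂ) F,
        x ∈ e.source ∧ s.coeff e x ≠ 0) →
      ∃ (N : ℕ) (_ : 1 ≤ N) (t : AntiSection (E × (Fin n → ℂ)) X N), t.Nonzero) := by
  refine ⟨⟨?_, ?_⟩, ?_, ?_⟩
  · rintro ⟨m, hm, s, hs⟩
    obtain ⟨N, hN, χ, t, ht, htχ⟩ := descent_flat hact hk η hη T Γ₀ (fun γ hγ => by
      obtain ⟨h, w, h1, h2, h3⟩ := hΓ₀ γ hγ
      exact ⟨h, w, h1, h2, 1, h3⟩) hm s hs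
    exact ⟨N, hN, χ, t, ht, htχ⟩
  · rintro ⟨N, hN, χ, t, ht, -⟩
    obtain ⟨s, hs⟩ := exists_slice t ht
    exact ⟨N, hN, s, hs⟩
  · intro m q s hm hs
    exact descent hact hp hsurj hfib hk η hη T Γ₀ hΓ₀ hm s hs
  · intro m hm h
    obtain ⟨q, s, hs⟩ := exists_lc_of_free h
    exact descent hact hp hsurj hfib hk η hη T Γ₀ hΓ₀ hm s hs
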