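import Vale.Agent.P299.S.Final5

namespace Vale.Agent.Results.P299.EulerNonzero

open Vale.Agent.P299

/-- Anticanonical nonvanishing for smooth projective varieties `X` with `χ(X, O_X) ≠ 0`. -/
theorem result (hRe : S.Resolution) (hKN : S.KollarNadelVanishing) (hHL : S.HardLefschetz)
    (hBo : S.BochnerVanishing) :
    ∀ (X : S.Var) (κ : S.Div X.toPVar), S.IsCanonical κ → S.SemiPos (-κ) →
      S.chi (0 : S.Div X.toPVar) ≠ 0 → ∃ m : ℕ, 0 < m ∧ S.HasSec (m • -κ) :=
  S.eulerNonzero5 hRe hKN hHL hBo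

end Vale.Agent.Results.P299.EulerNonzero
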