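import Vale.Agent.P299.S.Final8

namespace Vale.Agent.Results.P299.Full

open Vale.Agent.P299

/-- Anticanonical nonvanishing for smooth projective varieties. -/
theorem result (hRe : S.Resolution) (hKN : S.KollarNadelVanishing) (hHL : S.HardLefschetz)
    (hBo : S.BochnerVanishing) (hSt : S.StructureTheoremForms) :
    ∀ (X : S.Var) (κ : S.Div X.toPVar), S.IsCanonical κ → S.SemiPos (-κ) →
      ∃ m : ℕ, 0 < m ∧ S.HasSec (m • -κ) :=
  S.fullQ8 hRe hKN hHL hBo hSt

end Vale.Agent.Results.P299.Full
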