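import Vale.Agent.P299.S.Final7

namespace Vale.Agent.Results.P299.FullQ1

open Vale.Agent.P299

/-- Anticanonical nonvanishing for smooth projective varieties. -/
theorem result (hRe : S.Resolution) (hEq : S.EquivariantResolution)
    (hKN : S.KollarNadelVanishing) (hHL : S.HardLefschetz) (hBo : S.BochnerVanishing)
    (hSt : S.StructureTheoremForms) :
    ∀ (X : S.Var) (κ : S.Div X.toPVar), S.IsCanonical κ → S.SemiPos (-κ) →
      ∃ m : ℕ, 0 < m ∧ S.HasSec (m • -κ) :=
  S.fullQ7 hRe hEq hKN hHL hBo hSt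

end Vale.Agent.Results.P299.FullQ1
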